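import Vale.Agent.P141.H44.PcaI
import Vale.Agent.P141.H505.SkelStack1
import Vale.Agent.P141.H585.PairS

/-!
# P141, line (A), increasing part: the pair `(C~, A)` from the raw pair theorem

`PCAf_pair` : `PCAf be z x` from `PairACr` of `H505.SkelStack1`, the numbers of the slot at every
`x0` and Cauchy-Schwarz over the `x0`.
-/

namespace Vale.Agent.P141.H44.Ti

open Finset Matrix
open Vale.Agent.P075 (Ix val rad)
open Vale.Agent.P141.PL (Pt iv hs ix mem_iv ix_ix)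
open Vale.Agent.P141.PL.H588 (Xg hd Pl)
open Vale.Agent.P141.H103 (QW PA GW)
open Vale.Agent.P141.H389 (Wf XW)
open Vale.Agent.P141.H585.PairCh (phs)
open Vale.Agent.P141.H652 (Th eb ah Th_psd)
open Vale.Agent.P141.H677 (KT GT sN rt tr_T cP rv sN_sub cP_pl)
open Vale.Agent.P141.H677.Sk (FamA FamV FunF)
open Vale.Agent.P141.H420 (Tr)
open Vale.Agent.P141.H505.Sk1 (Wgt Num NumA PairACr W3 Ch)
open Vale.Agent.P141.H408

noncomputable section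

open scoped Classical

theorem tr_phs_le {n : Type*} [Fintype n] [DecidableEq n] {s : ℝ} (hs : 0 < s)
    {X Y : Matrix n n ℝ} (r : Matrix n n ℝ) (hr : rᵀ = r) (hX : X.PosSemidef)
    (hY : Y.PosSemidef) : (phs s X * (r * Y * r)).trace ≤ (X * (r * Y * r)).trace := by
  have h := tr_pair_nonneg r hr (H585.PairS.phs_le hs hX) hY
  rw [Matrix.sub_mul, trace_sub] at h
  linarith

theorem GW_mono' {N : ℕ} {R S T : ℤ} {k : ℕ} {c : ℤ} {g g' : ℤ → ℤ → ℤ → ℝ}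
    (h : ∀ n n' m, g n n' m ≤ g' n n' m) : GW N R S T k c g ≤ GW N R S T k c g' := by
  unfold H103.GW
  refine mul_le_mul_of_nonneg_left (sum_le_sum fun m _ => sum_le_sum fun n _ => ?_)
    (by positivity)
  split_ifs
  · exact h _ _ _
  · exact le_rfl

section fam

variable {ι : Type} [Fintype ι] [DecidableEq ι]

/-- the slot `A` stopped at the time `K` -/
def At (A : FamA) (K : ℕ) (x0 : ℤ) (k : ℕ) : ℤ → ℤ → ℝ := Aw A x0 (min k K)

/-- the slot `C` stopped at the time `K` -/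
def Cs (C : FamV ι) (K : ℕ) (x0 : ℤ) (k : ℕ) : ℤ → ℤ → ι → ℝ := Cw C x0 (min k K)

/-- the weight of the pair is a weight of the stack -/
theorem wgt_Ww {be l : ℝ} (hbe : 0 < be) (hl : 0 < l) (o : ℤ) (K : ℕ) (M : Pt)
    (u : ℤ → ℤ → ι → ℝ) (x0 : ℤ) :
    Wgt K be (Ww be l o K M u x0)
      (fun x k m => - eb l K M.2.1 (KT l u x) (o - 2) x0 x k m)
      (fun x k m => ah' l K M.2.1 (KT l u) (o - 2) x0 x k m)
      (fun x k m => eb l K M.2.1 (KT l u x) (o - 2) x0 x k m) where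
  pos := hbe
  ge x k m := by
    unfold Ww Wg
    rw [add_sub_cancel_left]
    exact Th_psd (tr_T hl K u x) (o - 2) x0 x k m
  wf := wf_Wg hbe (fun x => tr_T hl K u x) (o - 2) x0

/-- **One `x0`.** -/
theorem pCA_pair {K₀ : ℝ} (hP : PairACr K₀) {be l : ℝ} (hbe : 0 < be) (hl : 0 < l) {o : ℤ}
    (ho : o = 1 ∨ o = -1) {K : ℕ} {M : Pt} {u : ℤ → ℤ → ι → ℝ} {A : FamA} {C : FamV ι} {x0 : ℤ}
    {b : ℕ → ℤ → ℤ → ι → ℝ} {E EA cC t2 z x : ℝ} {J : ℕ}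
    (hN : Num 0 K M.1 M.2.1 M.2.2 (cP o x0) (At A K x0) b (Cs C K x0) (Ww be l o K M u x0)
      (fun x k m => ah' l K M.2.1 (KT l u) (o - 2) x0 x k m)
      (fun x k m => eb l K M.2.1 (KT l u x) (o - 2) x0 x k m) E cC)
    (hA : NumA 0 K M.1 M.2.1 M.2.2 (cP o x0) (At A K x0) (Cs C K x0) t2 EA)
    (hz : 0 < z) (hx : 0 < x) (ht : 0 < t2) (hJ : cC ^ 2 ≤ 4 ^ J * z ^ 2) :
    pCA be l o K M u A C z x x0 ≤ K₀ * (J + 1) ^ 3 * (√(z ^ 2 * E * (t2 * EA)) + t2 * E) := by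
  refine le_trans ?_ (hP (κ := ι) 0 K M.1 M.2.1 M.2.2 (cP o x0) be (At A K x0) b (Cs C K x0)
    (Ww be l o K M u x0) (fun x k m => - eb l K M.2.1 (KT l u x) (o - 2) x0 x k m)
    (fun x k m => ah' l K M.2.1 (KT l u) (o - 2) x0 x k m)
    (fun x k m => eb l K M.2.1 (KT l u x) (o - 2) x0 x k m) E EA cC t2 (z ^ 2) J (Nat.zero_le K)
    (cP_pl ho x0) (wgt_Ww hbe hl o K M u x0) hN hA (by positivity) ht hJ)
  unfold pCA
  refine sum_le_sum fun k hk => ?_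
  have hk1 : k + 1 ≤ K := by
    have := (mem_Ico.1 hk).2
    omega
  have eA : At A K x0 (k + 1) = Aw A x0 (k + 1) := by
    unfold At
    rw [min_eq_left hk1]
  have eC : Cs C K x0 (k + 1) = Cw C x0 (k + 1) := by
    unfold Cs
    rw [min_eq_left hk1]
  rw [eA, eC]
  refine GW_mono' fun n n' m => ?_
  have hT : ∀ x, Tr l K (GT u x) (KT l u x) := fun x => tr_T hl K u x
  refine tr_phs_le (by positivity) (hd (k + 1)) (PL.H804.hd_symm _) (PL.H588.Xg_psd _ _ _ _ _) ?_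
  exact H389.phs_psd (by positivity) (H389.XW_psd (wf_Wg hbe hT (o - 2) x0 (S := M.2.1)) _ _ _ _ _)

/-- **The pair `(C~, A)` of the increasing part from the raw pair theorem.** -/
theorem PCAf_pair {K₀ : ℝ} (hP : PairACr K₀) (hK₀ : 0 ≤ K₀) {be l : ℝ} (hbe : 0 < be) (hl : 0 < l)
    {o : ℤ} (ho : o = 1 ∨ o = -1) {K : ℕ} {M : Pt} {u : ℤ → ℤ → ι → ℝ} {A : FamA} {C : FamV ι}
    {bs : ℤ → ℕ → ℤ → ℤ → ι → ℝ} {E EA : ℤ → ℝ} {cC t2 z x SE SA : ℝ} {J : ℕ}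
    (hN : ∀ t ∈ rt M, ∀ x0 ∈ iv K t, Num 0 K M.1 M.2.1 M.2.2 (cP o x0) (At A K x0) (bs x0)
      (Cs C K x0) (Ww be l o K M u x0)
      (fun x k m => ah' l K M.2.1 (KT l u) (o - 2) x0 x k m)
      (fun x k m => eb l K M.2.1 (KT l u x) (o - 2) x0 x k m) (E x0) cC)
    (hA : ∀ t ∈ rt M, ∀ x0 ∈ iv K t, NumA 0 K M.1 M.2.1 M.2.2 (cP o x0) (At A K x0) (Cs C K x0)
      t2 (EA x0))
    (hE : ∑ t ∈ rt M, ∑ x0 ∈ iv K t, E x0 ≤ SE) (hEA : ∑ t ∈ rt M, ∑ x0 ∈ iv K t, EA x0 ≤ SA)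
    (hE0 : ∀ x0, 0 ≤ E x0) (hA0 : ∀ x0, 0 ≤ EA x0)
    (hz : 0 < z) (hx : 0 < x) (ht : 0 < t2) (hJ : cC ^ 2 ≤ 4 ^ J * z ^ 2)
    (Al : ℕ → Pt → Prop) (sg : ℕ → Pt → ℝ) (b : FamV ι) :
    PCAf be z x ι Al o K M sg l u A b C ≤
      K₀ * (J + 1) ^ 3 * (√(z ^ 2 * SE * (t2 * SA)) + t2 * SE) := by
  refine (PCAf_le hbe hl Al o K M sg u A b C hz hx).trans ?_
  have hc : 0 ≤ K₀ * ((J : ℝ) + 1) ^ 3 := by positivity
  refine (sum_le_sum fun t h1 => sum_le_sum fun x0 h2 => pCA_pair hP hbe hl ho (hN t h1 x0 h2)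
    (hA t h1 x0 h2) hz hx ht hJ).trans ?_
  have e1 : ∀ f : ℤ → ℝ, ∑ t ∈ rt M, ∑ x0 ∈ iv K t, f x0 =
      ∑ i ∈ (rt M).sigma fun t => iv K t, f i.2 := fun f => by rw [sum_sigma]
  rw [e1] at hE hEA ⊢
  rw [← mul_sum, sum_add_distrib, ← mul_sum]
  refine mul_le_mul_of_nonneg_left (add_le_add ?_ (mul_le_mul_of_nonneg_left hE ht.le)) hc
  have h3 : ∀ i : (_ : ℤ) × ℤ, √(z ^ 2 * E i.2 * (t2 * EA i.2)) =
      √(z ^ 2 * E i.2) * √(t2 * EA i.2) := fun i => Real.sqrt_mul (by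
    have := hE0 i.2
    positivity) _
  rw [sum_congr rfl fun i _ => h3 i]
  refine (Real.sum_sqrt_mul_sqrt_le _ (fun i => by
    have := hE0 i.2
    positivity) (fun i => by
    have := hA0 i.2
    positivity)).trans ?_
  rw [← Real.sqrt_mul (sum_nonneg fun i _ => by
    have := hE0 i.2
    positivity)]
  have hSE : 0 ≤ ∑ i ∈ (rt M).sigma fun t => iv K t, E i.2 := sum_nonneg fun i _ => hE0 _
  have hSA : 0 ≤ ∑ i ∈ (rt M).sigma fun t => iv K t, EA i.2 := sum_nonneg fun i _ => hA0 _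
  refine Real.sqrt_le_sqrt ?_
  rw [← mul_sum, ← mul_sum]
  have hz2 : 0 ≤ z ^ 2 := by positivity
  exact mul_le_mul (mul_le_mul_of_nonneg_left hE hz2) (mul_le_mul_of_nonneg_left hEA ht.le)
    (mul_nonneg ht.le hSA) (mul_nonneg hz2 (hSE.trans hE))

end fam

end

end Vale.Agent.P141.H44.Ti
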