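import Vale.Agent.P141.H408.SkelTI
import Vale.Agent.P141.H389.PathA

/-!
# P141, line (A), increasing part: the pair `(C~, A)` of `SkelTI` in the letters of the pair theorem

`QW_Ct` : the Gram matrix of `W ^ (1/2) C` is the Gram matrix of `C` with the weight `W`.
`rCA_nonneg`, `pca_x0` : the pair sum at one `x0` is at most the plane sums of the pair theorem.
-/

namespace Vale.Agent.P141.H44.Ti

open Finset Matrix
open Vale.Agent.P075 (Ix val rad)
open Vale.Agent.P141.PL (Pt iv hs ix mem_iv ix_ix)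
open Vale.Agent.P141.PL.H588 (Xg hd)
open Vale.Agent.P141.PL.H804 (bx3)
open Vale.Agent.P141.H103 (QW PA GW)
open Vale.Agent.P141.H389 (Wf XW)
open Vale.Agent.P141.H585.PairCh (phs)
open Vale.Agent.P141.H652 (Th eb ah Th_psd)
open Vale.Agent.P141.H677 (KT GT sN rt tr_T cP rv sN_sub)
open Vale.Agent.P141.H677.Sk (FamA FamV FunF)
open Vale.Agent.P141.H420 (Tr)
open Vale.Agent.P141.H408

noncomputable section

open scoped Classical

section weight

variable {κ : Type*} [Fintype κ] [DecidableEq κ]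

omit [DecidableEq κ] in
theorem dot_sym {r : Matrix κ κ ℝ} (hr : rᵀ = r) (v w : κ → ℝ) :
    r *ᵥ v ⬝ᵥ w = v ⬝ᵥ r *ᵥ w := by
  rw [dotProduct_mulVec v r w, ← mulVec_transpose, hr]

/-- **The Gram matrix of `W ^ (1/2) C`.** -/
theorem QW_Ct {be l : ℝ} (hbe : 0 < be) {N : ℕ} {S : ℤ} {G Kq : ℤ → ℕ → ℤ → Matrix κ κ ℝ}
    (h : ∀ x, Tr l N (G x) (Kq x)) (c x0 : ℤ) (C : ℤ → ℤ → κ → ℝ) (a k : ℕ) (n m : ℤ) :
    QW a k (fun x z => Ct be l N S Kq c x0 C k z x) (fun _ => 1) n m =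
      QW a k (fun x z => C z x) (fun x => Wg be l N S Kq c x0 x k m) n m := by
  ext j j'
  unfold QW
  congr 1
  refine sum_congr rfl fun x _ => ?_
  have hj : ix k (2 ^ k * m + val k j) = m := H389.cell_ix j
  have hj' : ix k (2 ^ k * m + val k j') = m := H389.cell_ix j'
  unfold Ct
  beta_reduce
  rw [hj, hj']
  obtain ⟨h1, h2⟩ := sq_spec (Wg_pd hbe h c x0 x k m (S := S))
  set r := H408.sq (Wg be l N S Kq c x0 x k m) with hr
  have hrt : rᵀ = r := h1.isHermitian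
  rw [one_mulVec, ← h2, ← mulVec_mulVec, dot_sym hrt]

/-- `ah` at the scale of the parent -/
def ah' (l : ℝ) (N : ℕ) (M : ℤ) (K : ℤ → ℕ → ℤ → Matrix κ κ ℝ) (c x0 x1 : ℤ) (k : ℕ) (m : ℤ) :
    Matrix κ κ ℝ := match k with
  | 0 => 0
  | k + 1 => ah l N M (K x1) c x0 x1 k m

/-- the weight of the slot is a weight field -/
theorem wf_Wg {be l : ℝ} (hbe : 0 < be) {N : ℕ} {S : ℤ} {G Kq : ℤ → ℕ → ℤ → Matrix κ κ ℝ}
    (h : ∀ x, Tr l N (G x) (Kq x)) (c x0 : ℤ) :
    Wf N (fun x k m => Wg be l N S Kq c x0 x k m) (fun x k m => - eb l N S (Kq x) c x0 x k m)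
      (fun x k m => ah' l N S Kq c x0 x k m) (fun x k m => eb l N S (Kq x) c x0 x k m) where
  pd x k m := Wg_pd hbe h c x0 x k m
  sN x k m := by
    rw [transpose_neg]
    congr 1
    exact (H652.eb_psd (h x) c x0 x k m).isHermitian
  sM x k m := by
    unfold ah'
    cases k with
    | zero => exact transpose_zero
    | succ k =>
      have e0 : (Th l N S (Kq x) c x0 x k (2 * m))ᵀ = Th l N S (Kq x) c x0 x k (2 * m) :=
        (Th_psd (h x) c x0 x k (2 * m)).isHermitian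
      have e1 : (Th l N S (Kq x) c x0 x k (2 * m + 1))ᵀ = Th l N S (Kq x) c x0 x k (2 * m + 1) :=
        (Th_psd (h x) c x0 x k (2 * m + 1)).isHermitian
      simp only [ah, transpose_smul, transpose_sub, e0, e1]
  pNm x k m := H652.eb_psd (h x) c x0 x k m
  pN x k m := by
    rw [neg_add_cancel]
    exact PosSemidef.zero
  left x k m _ := by
    have e := (H652.wt_Th h S c x0).even k x m
    unfold Wg
    simp only [ah']
    rw [e]
    abel
  right x k m _ := by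
    have e := (H652.wt_Th h S c x0).odd k x m
    unfold Wg
    simp only [ah']
    rw [e]
    abel

/-- `P M` traces of a pair of positive semidefinite matrices around a symmetric involution -/
theorem tr_pair_nonneg {n : Type*} [Fintype n] [DecidableEq n] {X Y : Matrix n n ℝ} (r : Matrix n n ℝ)
    (hr : rᵀ = r) (hX : X.PosSemidef) (hY : Y.PosSemidef) : 0 ≤ (X * (r * Y * r)).trace := by
  have h : (r * Y * r).PosSemidef := by
    have := hY.mul_mul_conjTranspose_same r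
    rwa [conjTranspose_eq_transpose_of_trivial, hr] at this
  exact P075.trace_mul_nonneg hX h

theorem tr_rot {n : Type*} [Fintype n] (P Q r : Matrix n n ℝ) :
    (P * (r * Q * r)).trace = (Q * (r * P * r)).trace := by
  calc (P * (r * Q * r)).trace = ((P * (r * Q)) * r).trace := by simp only [Matrix.mul_assoc]
    _ = (r * (P * (r * Q))).trace := trace_mul_comm _ _
    _ = ((r * P * r) * Q).trace := by simp only [Matrix.mul_assoc]
    _ = (Q * (r * P * r)).trace := trace_mul_comm _ _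

/-- the pair at a node is the summand of the pair theorem -/
theorem rCA_eq {be l : ℝ} (hbe : 0 < be) {N : ℕ} {S : ℤ} {G Kq : ℤ → ℕ → ℤ → Matrix κ κ ℝ}
    (h : ∀ x, Tr l N (G x) (Kq x)) (c x0 : ℤ) (C : ℤ → ℤ → κ → ℝ) (A : ℤ → ℤ → ℝ) (k : ℕ) (m : Pt)
    (z x : ℝ) :
    rCA (Ct be l N S Kq c x0 C k) A k m z x =
      4 ^ k * (phs (x ^ 2) (PA (fun y z => A z y) k k m.2.1 m.1) *
        (hd k * phs (z ^ 2) (XW (fun x z => C z x) (fun x k m => Wg be l N S Kq c x0 x k m) k k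
          m.2.2 m.1) * hd k)).trace := by
  unfold rCA XW PA
  rw [QW_Ct hbe h c x0 C k k m.2.2 m.1]
  congr 1
  exact tr_rot _ _ _

end weight

/-- **The pair sum over a set of nodes of one scale is at most the plane sum.** -/
theorem node_GW {N : ℕ} {R : Pt} {k : ℕ} {c : ℤ} {s : Finset Pt} (hs : s ⊆ bx3 N R k c)
    (g : ℤ → ℤ → ℤ → ℝ) (hg : ∀ n n' m, 0 ≤ g n n' m) :
    ∑ m ∈ s, 4 ^ k * g m.2.1 m.2.2 m.1 ≤ GW N R.2.1 R.1 R.2.2 k c g := by
  refine (sum_le_sum_of_subset_of_nonneg hs fun m _ _ => mul_nonneg (by positivity)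
    (hg _ _ _)).trans (le_of_eq ?_)
  rw [PL.H804.sum_bx3_12]
  unfold H103.GW
  rw [mul_sum]
  refine sum_congr rfl fun m1 _ => ?_
  rw [mul_sum]
  refine sum_congr rfl fun m2 _ => ?_
  split_ifs
  · rfl
  · rw [mul_zero]

section fam

variable {ι : Type} [Fintype ι] [DecidableEq ι]

/-- the slot `A` at the time `k`, order `x2`, `x3` -/
def Aw (A : FamA) (x0 : ℤ) (k : ℕ) : ℤ → ℤ → ℝ := fun y z => A x0 k z y

/-- the slot `C` at the time `k`, order `x1`, `x3` -/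
def Cw (C : FamV ι) (x0 : ℤ) (k : ℕ) : ℤ → ℤ → ι → ℝ := fun x z => C x0 k z x

/-- the weight field at `x0` -/
def Ww (be l : ℝ) (o : ℤ) (K : ℕ) (M : Pt) (u : ℤ → ℤ → ι → ℝ) (x0 x : ℤ) (k : ℕ) (m : ℤ) :
    Matrix ι ι ℝ := Wg be l K M.2.1 (KT l u) (o - 2) x0 x k m

/-- the plane sums of the pair theorem at `x0` -/
def pCA (be l : ℝ) (o : ℤ) (K : ℕ) (M : Pt) (u : ℤ → ℤ → ι → ℝ) (A : FamA) (C : FamV ι)
    (z x : ℝ) (x0 : ℤ) : ℝ :=
  ∑ k ∈ Ico 0 K, GW K M.2.1 M.2.2 M.1 (k + 1) (cP o x0 (k + 1)) fun n n' m =>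
    (phs (x ^ 2) (PA (Aw A x0 (k + 1)) (k + 1) (k + 1) n m) *
      (hd (k + 1) * phs (z ^ 2) (XW (Cw C x0 (k + 1)) (Ww be l o K M u x0) (k + 1) (k + 1) n' m) *
        hd (k + 1))).trace

/-- **The pair `(C~, A)` of the increasing part by the plane sums of the pair theorem.** -/
theorem PCAf_le {be l : ℝ} (hbe : 0 < be) (hl : 0 < l) (Al : ℕ → Pt → Prop) (o : ℤ) (K : ℕ)
    (M : Pt) (sg : ℕ → Pt → ℝ) (u : ℤ → ℤ → ι → ℝ) (A : FamA) (b C : FamV ι) {z x : ℝ}
    (hz : 0 < z) (hx : 0 < x) :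
    PCAf be z x ι Al o K M sg l u A b C ≤
      ∑ t ∈ rt M, ∑ x0 ∈ iv K t, pCA be l o K M u A C z x x0 := by
  unfold PCAf SN
  refine sum_le_sum fun t _ => sum_le_sum fun x0 _ => ?_
  unfold pCA
  have e : Icc 1 K = (Ico 0 K).image (· + 1) := by
    ext k
    simp only [mem_Icc, mem_image, mem_Ico]
    constructor
    · rintro ⟨h1, h2⟩
      exact ⟨k - 1, ⟨Nat.zero_le _, by omega⟩, by omega⟩
    · rintro ⟨j, ⟨_, h2⟩, rfl⟩
      exact ⟨by omega, by omega⟩
  rw [e, sum_image fun a _ b _ hab => by simpa using hab]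
  refine sum_le_sum fun k _ => ?_
  have hT : ∀ x, Tr l K (GT u x) (KT l u x) := fun x => tr_T hl K u x
  refine le_trans (le_of_eq (sum_congr rfl fun m _ => rCA_eq hbe hT (o - 2) x0 (C x0 (k + 1))
    (A x0 (k + 1)) (k + 1) m z x)) ?_
  refine node_GW (sN_sub Al o K M x0 (k + 1)) (fun n n' m =>
    (phs (x ^ 2) (PA (Aw A x0 (k + 1)) (k + 1) (k + 1) n m) *
      (hd (k + 1) * phs (z ^ 2) (XW (Cw C x0 (k + 1)) (Ww be l o K M u x0) (k + 1) (k + 1) n' m) *
        hd (k + 1))).trace) fun n n' m => ?_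
  refine tr_pair_nonneg _ (PL.H804.hd_symm _) ?_ ?_
  · exact H389.phs_psd (by positivity) (PL.H588.Xg_psd _ _ _ _ _)
  · exact H389.phs_psd (by positivity) (H389.XW_psd (wf_Wg hbe hT (o - 2) x0 (S := M.2.1)) _ _ _ _ _)

end fam

end

end Vale.Agent.P141.H44.Ti
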